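import Vale.Agent.P011Z.Cl.Nrd.Alg
import Vale.Agent.P011.W.Eich

/-!
The reduced norm of a cyclic algebra of degree three over a number field is surjective.
-/

open Matrix Module

noncomputable section

namespace Vale.Agent.P011Z.Cl.Nrdx

open Vale.Agent.P011.W

variable {E L : Type} [Field E] [NumberField E] [Field L] [Algebra E L] {r : L →ₐ[E] L} {t : L}

theorem exists_det (ht : r t = t) (ht0 : t ≠ 0) (h3 : ∀ x, r (r (r x)) = x)
    (hd : finrank E L = 3) (hfix : ∀ x, r x = x → ∃ c, algebraMap E L c = x)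
    (hne : ∃ l, r l ≠ l) (μ : E) (hμ : μ ≠ 0) : ∃ M ∈ cyc r t, M.det = algebraMap E L μ := by
  by_cases h : ∃ x ∈ cyc r t, x ≠ 0 ∧ x.det = 0
  · obtain ⟨x, hx, hx0, hxd⟩ := h
    exact exists_det_of_zero ht ht0 h3 hx hx0 hxd μ
  · have hu : ∀ x : cyc r t, IsUnit x ∨ x = 0 := by
      intro x
      by_cases hx : x = 0
      · exact Or.inr hx
      · refine Or.inl (isUnit_of_det x fun hxd => h ⟨x, x.2, fun h0 => hx (Subtype.ext h0), hxd⟩)
    have h9 : finrank E (cyc r t) = (3 ^ 1) ^ 2 := finrank_cyc ht h3 hd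
    have hc : Algebra.IsCentral E (cyc r t) := central_cyc ht h3 hfix hne
    have hf : FiniteDimensional E (cyc r t) := Module.finite_of_finrank_pos (by rw [h9]; norm_num)
    let _ : DivisionRing (cyc r t) := DivisionRing.ofIsUnitOrEqZero hu
    obtain ⟨x, hx⟩ := eichler (F := E) (D := cyc r t) Nat.prime_three (e := 1) h9 μ hμ
      (fun h2 => absurd h2 (by norm_num))
    exact ⟨x, x.2, hx L (cyc r t).val⟩

theorem exists_nrd (ht : r t = t) (ht0 : t ≠ 0) (h3 : ∀ x, r (r (r x)) = x)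
    (hd : finrank E L = 3) (hfix : ∀ x, r x = x → ∃ c, algebraMap E L c = x)
    (hne : ∃ l, r l ≠ l) (μ : E) (hμ : μ ≠ 0) :
    ∃ d a b : L, d * r d * r (r d) - t * (d * a * b + r (d * a * b) + r (r (d * a * b))) +
      t * (a * r a * r (r a)) + t ^ 2 * (b * r b * r (r b)) = algebraMap E L μ := by
  obtain ⟨M, hM, hdet⟩ := exists_det ht ht0 h3 hd hfix hne μ hμ
  refine ⟨M 0 0, r (M 0 1), r (r (M 0 2)), ?_⟩
  rw [← hdet, ← det_cm h3, ← eq_cm ht hM]

end Vale.Agent.P011Z.Cl.Nrdx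

end
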