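import Mathlib

/-!
Cyclic algebras of degree three as algebras of matrices.
-/

open Matrix Module

noncomputable section

namespace Vale.Agent.P011Z.Cl.Nrdx

variable {E L : Type} [Field E] [Field L] [Algebra E L]

/-- The companion matrix of `X ^ 3 - t`. -/
def cu (t : L) : Matrix (Fin 3) (Fin 3) L := !![0, 1, 0; 0, 0, 1; t, 0, 0]

/-- The matrix with first row `d, a, b`. -/
def cm (r : L →ₐ[E] L) (t d a b : L) : Matrix (Fin 3) (Fin 3) L :=
  !![d, a, b; t * r b, r d, r a; t * r (r a), t * r (r b), r (r d)]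

/-- The cyclic algebra. -/
def cyc (r : L →ₐ[E] L) (t : L) : Subalgebra E (Matrix (Fin 3) (Fin 3) L) where
  carrier := {M | r.mapMatrix M * cu t = cu t * M}
  mul_mem' := by
    intro M N hM hN
    change r.mapMatrix (M * N) * cu t = cu t * (M * N)
    have h1 : r.mapMatrix M * cu t = cu t * M := hM
    have h2 : r.mapMatrix N * cu t = cu t * N := hN
    rw [map_mul, mul_assoc, h2, ← mul_assoc, h1, mul_assoc]
  add_mem' := by
    intro M N hM hN
    change r.mapMatrix (M + N) * cu t = cu t * (M + N)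
    have h1 : r.mapMatrix M * cu t = cu t * M := hM
    have h2 : r.mapMatrix N * cu t = cu t * N := hN
    rw [map_add, add_mul, h1, h2, mul_add]
  algebraMap_mem' := by
    intro c
    change r.mapMatrix (algebraMap E _ c) * cu t = cu t * algebraMap E _ c
    rw [AlgHom.commutes, Algebra.commutes]

variable {r : L →ₐ[E] L} {t : L}

theorem mem_cyc {M : Matrix (Fin 3) (Fin 3) L} :
    M ∈ cyc r t ↔ r.mapMatrix M * cu t = cu t * M := Iff.rfl

theorem eq_cm (ht : r t = t) {M : Matrix (Fin 3) (Fin 3) L} (hM : M ∈ cyc r t) :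
    M = cm r t (M 0 0) (M 0 1) (M 0 2) := by
  have h : r.mapMatrix M * cu t = cu t * M := hM
  have h00 := congrFun (congrFun h 0) 0
  have h01 := congrFun (congrFun h 0) 1
  have h02 := congrFun (congrFun h 0) 2
  have h10 := congrFun (congrFun h 1) 0
  have h11 := congrFun (congrFun h 1) 1
  have h12 := congrFun (congrFun h 1) 2
  simp [cu, Matrix.mul_apply, Fin.sum_univ_three] at h00 h01 h02 h10 h11 h12
  have e10 : M 1 0 = t * r (M 0 2) := by rw [← h00, mul_comm]
  have e20 : M 2 0 = t * r (r (M 0 1)) := by rw [← h10, ← h02, mul_comm]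
  have e21 : M 2 1 = t * r (r (M 0 2)) := by rw [← h11, e10, map_mul, ht]
  have e22 : M 2 2 = r (r (M 0 0)) := by rw [← h12, ← h01]
  ext i j
  fin_cases i <;> fin_cases j <;> simp [cm, e10, e20, e21, e22, h01, h02]

theorem cm_mem (ht : r t = t) (h3 : ∀ x, r (r (r x)) = x) (d a b : L) :
    cm r t d a b ∈ cyc r t := by
  rw [mem_cyc]
  ext i j
  fin_cases i <;> fin_cases j <;>
    simp [cm, cu, Matrix.mul_apply, Fin.sum_univ_three, ht, h3, mul_comm]

theorem cu_mem (ht : r t = t) : cu t ∈ cyc r t := by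
  rw [mem_cyc]
  ext i j
  fin_cases i <;> fin_cases j <;> simp [cu, Matrix.mul_apply, Fin.sum_univ_three, ht]

theorem det_cm (h3 : ∀ x, r (r (r x)) = x) (d a b : L) :
    (cm r t d a b).det = d * r d * r (r d) -
      t * (d * r a * r (r b) + r (d * r a * r (r b)) + r (r (d * r a * r (r b)))) +
        t * (r a * r (r a) * r (r (r a))) +
          t ^ 2 * (r (r b) * r (r (r b)) * r (r (r (r b)))) := by
  rw [Matrix.det_fin_three]
  simp only [map_mul, h3]
  simp [cm]
  ring

theorem cu_cube : cu t * cu t * cu t = t • (1 : Matrix (Fin 3) (Fin 3) L) := by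
  ext i j
  fin_cases i <;> fin_cases j <;> simp [cu, Matrix.mul_apply, Fin.sum_univ_three]

theorem adj_cu : adjugate (cu t) = cu t * cu t := by
  rw [adjugate_fin_three]
  ext i j
  fin_cases i <;> fin_cases j <;> simp [cu, Matrix.mul_apply, Fin.sum_univ_three]

theorem adj_mem (ht0 : t ≠ 0) {M : Matrix (Fin 3) (Fin 3) L} (hM : M ∈ cyc r t) :
    adjugate M ∈ cyc r t := by
  have h : r.mapMatrix M * cu t = cu t * M := hM
  have h1 := congrArg adjugate h
  rw [adjugate_mul_distrib, adjugate_mul_distrib, adj_cu, ← AlgHom.map_adjugate] at h1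
  have h2 : cu t * (cu t * cu t * r.mapMatrix (adjugate M)) * cu t =
      cu t * (adjugate M * (cu t * cu t)) * cu t := by rw [h1]
  have h3 : t • (r.mapMatrix (adjugate M) * cu t) = t • (cu t * adjugate M) := by
    calc t • (r.mapMatrix (adjugate M) * cu t)
        = (cu t * cu t * cu t) * (r.mapMatrix (adjugate M) * cu t) := by
          rw [cu_cube, smul_mul_assoc, one_mul]
      _ = (cu t * adjugate M) * (cu t * cu t * cu t) := by
          simp only [mul_assoc] at h2 ⊢
          exact h2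
      _ = t • (cu t * adjugate M) := by rw [cu_cube, mul_smul_comm, mul_one]
  exact smul_right_injective _ ht0 h3

/-- Elements of nonzero determinant are units of the algebra. -/
theorem isUnit_of_det (x : cyc r t) (hx : (x : Matrix (Fin 3) (Fin 3) L).det ≠ 0) : IsUnit x := by
  obtain ⟨M, hM⟩ := x
  have hu : IsUnit M.det := isUnit_iff_ne_zero.mpr hx
  have h : r.mapMatrix M * cu t = cu t * M := hM
  have h1 : M * M⁻¹ = 1 := Matrix.mul_nonsing_inv M hu
  have h2 : M⁻¹ * M = 1 := Matrix.nonsing_inv_mul M hu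
  have h3 : M⁻¹ ∈ cyc r t := by
    rw [mem_cyc]
    calc r.mapMatrix M⁻¹ * cu t = r.mapMatrix M⁻¹ * (cu t * M) * M⁻¹ := by
          rw [mul_assoc, mul_assoc, h1, mul_one]
      _ = cu t * M⁻¹ := by rw [← h, ← mul_assoc, ← map_mul, h2, map_one, one_mul]
  exact ⟨⟨⟨M, hM⟩, ⟨M⁻¹, h3⟩, Subtype.ext h1, Subtype.ext h2⟩, rfl⟩

theorem det_one_add {z : Matrix (Fin 3) (Fin 3) L} (hz : adjugate z = 0) (s : L) :
    (1 + s • z).det = 1 + s * (z 0 0 + z 1 1 + z 2 2) := by
  have h00 := congrFun (congrFun hz 0) 0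
  have h11 := congrFun (congrFun hz 1) 1
  have h22 := congrFun (congrFun hz 2) 2
  have h10 := congrFun (congrFun hz 1) 0
  have h20 := congrFun (congrFun hz 2) 0
  rw [adjugate_fin_three] at h00 h11 h22 h10 h20
  simp at h00 h11 h22 h10 h20
  rw [Matrix.det_fin_three]
  simp
  linear_combination s ^ 2 * (h00 + h11 + h22) + s ^ 3 * (z 0 0 * h00 + z 0 1 * h10 + z 0 2 * h20)

/-- If the algebra has zero divisors it has an element of rank one with diagonal `1, 1, 1`. -/
theorem exists_rank_one (ht : r t = t) (ht0 : t ≠ 0) (h3 : ∀ x, r (r (r x)) = x)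
    {x : Matrix (Fin 3) (Fin 3) L} (hx : x ∈ cyc r t) (hx0 : x ≠ 0) (hd : x.det = 0) :
    ∃ z ∈ cyc r t, adjugate z = 0 ∧ z 0 0 = 1 := by
  have h1 : ∃ y ∈ cyc r t, y ≠ 0 ∧ adjugate y = 0 := by
    by_cases h : adjugate x = 0
    · exact ⟨x, hx, hx0, h⟩
    · refine ⟨adjugate x, adj_mem ht0 hx, h, ?_⟩
      rw [adjugate_adjugate x (by simp), hd]
      simp
  obtain ⟨y, hy, hy0, hya⟩ := h1
  have key : ∀ w ∈ cyc r t, (y * w) 0 0 ≠ 0 → ∃ z ∈ cyc r t, adjugate z = 0 ∧ z 0 0 = 1 := by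
    intro w hw h0
    refine ⟨y * w * cm r t ((y * w) 0 0)⁻¹ 0 0, mul_mem (mul_mem hy hw) (cm_mem ht h3 _ _ _),
      ?_, ?_⟩
    · rw [adjugate_mul_distrib, adjugate_mul_distrib, hya, mul_zero, mul_zero]
    · rw [Matrix.mul_apply, Fin.sum_univ_three]
      simp [cm, h0]
  by_cases h0 : y 0 0 = 0
  · by_cases h2 : y 0 2 = 0
    · by_cases h1 : y 0 1 = 0
      · exfalso
        apply hy0
        rw [eq_cm ht hy, h0, h1, h2]
        ext i j
        fin_cases i <;> fin_cases j <;> simp [cm]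
      · refine key (cu t * cu t) (mul_mem (cu_mem ht) (cu_mem ht)) ?_
        simp [cu, Matrix.mul_apply, Fin.sum_univ_three, h1, ht0]
    · refine key (cu t) (cu_mem ht) ?_
      simp [cu, Matrix.mul_apply, Fin.sum_univ_three, h2, ht0]
  · exact key 1 (one_mem _) (by rwa [mul_one])

/-- The split case. -/
theorem exists_det_of_zero [CharZero E] (ht : r t = t) (ht0 : t ≠ 0) (h3 : ∀ x, r (r (r x)) = x)
    {x : Matrix (Fin 3) (Fin 3) L} (hx : x ∈ cyc r t) (hx0 : x ≠ 0) (hd : x.det = 0) (μ : E) :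
    ∃ M ∈ cyc r t, M.det = algebraMap E L μ := by
  obtain ⟨z, hz, hza, hz0⟩ := exists_rank_one ht ht0 h3 hx hx0 hd
  have e := eq_cm ht hz
  have h11 : z 1 1 = 1 := by rw [e, hz0]; simp [cm]
  have h22 : z 2 2 = 1 := by rw [e, hz0]; simp [cm]
  refine ⟨1 + ((μ - 1) / 3) • z, add_mem (one_mem _) (Subalgebra.smul_mem _ hz _), ?_⟩
  rw [← algebraMap_smul L, det_one_add hza, hz0, h11, h22]
  have h : (1 + (μ - 1) / 3 * (1 + 1 + 1) : E) = μ := by ring
  rw [← h]
  simp only [map_add, map_mul, map_one]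
  rw [h]

/-- The first row. -/
def row (ht : r t = t) (h3 : ∀ x, r (r (r x)) = x) : cyc r t ≃ₗ[E] (Fin 3 → L) where
  toFun M := (M : Matrix (Fin 3) (Fin 3) L) 0
  map_add' _ _ := rfl
  map_smul' _ _ := rfl
  invFun v := ⟨cm r t (v 0) (v 1) (v 2), cm_mem ht h3 _ _ _⟩
  left_inv M := Subtype.ext (eq_cm ht M.2).symm
  right_inv v := by
    funext j
    fin_cases j <;> simp [cm]

theorem finrank_cyc (ht : r t = t) (h3 : ∀ x, r (r (r x)) = x) (hd : finrank E L = 3) :
    finrank E (cyc r t) = 9 := by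
  have : FiniteDimensional E L := Module.finite_of_finrank_pos (by omega)
  rw [(row ht h3).finrank_eq, Module.finrank_pi_fintype, hd]
  simp

theorem central_cyc (ht : r t = t) (h3 : ∀ x, r (r (r x)) = x)
    (hfix : ∀ x, r x = x → ∃ c, algebraMap E L c = x) (hne : ∃ l, r l ≠ l) :
    Algebra.IsCentral E (cyc r t) := by
  refine ⟨fun z hz => ?_⟩
  obtain ⟨l, hl⟩ := hne
  have hl2 : r (r l) ≠ l := fun h => hl (by
    have h1 := h3 l
    rwa [h] at h1)
  rw [Subalgebra.mem_center_iff] at hz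
  have h1 := congrArg Subtype.val (hz ⟨_, cm_mem ht h3 l 0 0⟩)
  have h2 := congrArg Subtype.val (hz ⟨_, cu_mem ht⟩)
  obtain ⟨M, hM⟩ := z
  change cm r t l 0 0 * M = M * cm r t l 0 0 at h1
  change cu t * M = M * cu t at h2
  have h01 := congrFun (congrFun h1 0) 1
  have h02 := congrFun (congrFun h1 0) 2
  have h11 := congrFun (congrFun h2 0) 1
  simp [cm, cu, Matrix.mul_apply, Fin.sum_univ_three] at h01 h02 h11
  have a1 : M 0 1 = 0 := by
    have : M 0 1 * (r l - l) = 0 := by linear_combination -h01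
    exact (mul_eq_zero.mp this).resolve_right (sub_ne_zero.mpr hl)
  have a2 : M 0 2 = 0 := by
    have : M 0 2 * (r (r l) - l) = 0 := by linear_combination -h02
    exact (mul_eq_zero.mp this).resolve_right (sub_ne_zero.mpr hl2)
  have e := eq_cm ht hM
  have a0 : r (M 0 0) = M 0 0 := by
    have : M 1 1 = r (M 0 0) := by
      have h := congrFun (congrFun e 1) 1
      simpa [cm] using h
    rw [← this, h11]
  obtain ⟨c, hc⟩ := hfix _ a0
  rw [Algebra.mem_bot]
  refine ⟨c, Subtype.ext ?_⟩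
  change algebraMap E (Matrix (Fin 3) (Fin 3) L) c = M
  rw [e, a1, a2, ← hc]
  ext i j
  fin_cases i <;> fin_cases j <;> simp [cm, Matrix.algebraMap_matrix_apply]

end Vale.Agent.P011Z.Cl.Nrdx

end
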